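import Mathlib

/-! # P127: sticky Kakeya sets in `ℝ⁴`.  Definitions.  Proof plan: `notes/P127.md`. -/

namespace Vale.Agent.P127

open Finset
open scoped Classical

noncomputable section

abbrev V (D : ℕ) : Type := Fin D → ℝ
abbrev Mt (D : ℕ) : Type := Fin D → Fin D → ℝ

/-- grid cell of side `r` -/
def cell {n : Type} (r : ℝ) (v : n → ℝ) : n → ℤ := fun j => ⌊v j / r⌋

/-- grid interval of length `r` -/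
def cz (r z : ℝ) : ℤ := ⌊z / r⌋

def mv {D : ℕ} (A : Mt D) (v : V D) : V D := fun i => ∑ j, A i j * v j

/-- lines `z ↦ x i + z • e i` (`i ∈ L`), heights `Z`, shading `E` -/
structure Cfg (D : ℕ) where
  L : Finset ℕ
  x : ℕ → V D
  e : ℕ → V D
  Z : Finset ℝ
  E : Finset (ℕ × ℝ)
  nL : ℝ

variable {D : ℕ}

def Cfg.pos (c : Cfg D) (ω : ℕ × ℝ) : V D := c.x ω.1 + ω.2 • c.e ω.1

def Cfg.res (c : Cfg D) (E' : Finset (ℕ × ℝ)) : Cfg D := { c with E := E' }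

/-- everything except stickiness -/
structure Pre (c : Cfg D) (N H K : ℝ) : Prop where
  sub : c.E ⊆ c.L ×ˢ c.Z
  nL_pos : 0 < c.nL
  bx : ∀ i ∈ c.L, ‖c.x i‖ ≤ 1
  be : ∀ i ∈ c.L, ‖c.e i‖ ≤ 1
  bz : ∀ z ∈ c.Z, 0 ≤ z ∧ z ≤ 1
  hts : ∀ a r : ℝ, 1 / H ≤ r → ((c.Z.filter fun z => |z - a| ≤ r).card : ℝ) ≤ K * r * H
  dirs : ∀ (p : V D) (r : ℝ), 1 / N ≤ r →
    ((c.L.filter fun i => ‖c.e i - p‖ ≤ r).card : ℝ) ≤ K * r ^ D * c.nL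
  mass : c.nL * H / K ≤ c.E.card

structure Good (c : Cfg D) (N H K : ℝ) : Prop extends Pre c N H K where
  st : ∀ (p : V D) (r : ℝ), 1 / N ≤ r → r ≤ 1 →
    (((c.L.filter fun i => ‖c.e i - p‖ ≤ r).image fun i => cell r (c.x i)).card : ℝ) ≤ K

/-- discretised sticky Kakeya estimate in `ℝ^(D+1)` with deficiency `σ` -/
def PK (D : ℕ) (σ : ℝ) : Prop :=
  ∀ ε > (0 : ℝ), ∃ η > (0 : ℝ), ∃ N0 : ℝ, ∀ N ≥ N0, ∀ c : Cfg D, Good c N N (N ^ η) →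
    N ^ ((D : ℝ) + 1 - σ - ε) ≤ ((c.E.image fun ω => (ω.2, cell (1 / N) (c.pos ω))).card : ℝ)

/-- configuration with grain data: `P z` is the projection modulo the grain plane at height `z` -/
structure Dat (D : ℕ) where
  c : Cfg D
  S : Finset (Fin D)
  P : ℝ → Mt D
  κ : ℤ → Mt D

def Dat.res (d : Dat D) (E' : Finset (ℕ × ℝ)) : Dat D := { d with c := d.c.res E' }

def Dat.u (d : Dat D) (ω : ℕ × ℝ) : V D := mv (d.P ω.2) (d.c.pos ω)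

def Dat.s (d : Dat D) (ω : ℕ × ℝ) : V D := mv (d.P ω.2) (d.c.e ω.1)

def Dat.st (d : Dat D) (η : ℝ) (ω : ℕ × ℝ) : V D := d.s ω + mv (d.κ (cz η ω.2)) (d.c.pos ω)

def Gr (S : Finset (Fin D)) (P : ℝ → Mt D) : Prop :=
  ∀ z, (∀ i ∉ S, ∀ j, P z i j = 0) ∧ (∀ i ∈ S, ∀ j ∈ S, P z i j = if i = j then 1 else 0) ∧
    ∀ i j, |P z i j| ≤ 2 ^ (D - S.card)

/-- near extremal configurations with grains of codimension `m` in the slices -/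
def CK (σ : ℝ) (m : ℕ) (d : Dat D) (N K : ℝ) : Prop :=
  d.S.card = m ∧ Good d.c N N K ∧ Gr d.S d.P ∧
    ((d.c.E.image fun ω => (ω.2, cell (1 / N) (d.u ω))).card : ℝ) ≤ K * N * N ^ ((m : ℝ) - σ)

structure Reg (σ : ℝ) (m : ℕ) (d : Dat D) (N H K : ℝ) : Prop where
  card_S : d.S.card = m
  good : Good d.c N H K
  gr : Gr d.S d.P
  sig0 : 0 < σ
  sigm : σ ≤ m
  r1 : ∀ (z α β : ℝ) (p q : V D), 1 / N ≤ β → β ≤ α → α ≤ 1 →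
    ((d.c.L.filter fun i => (i, z) ∈ d.c.E ∧ ‖d.c.e i - p‖ ≤ α ∧
      ‖d.c.pos (i, z) - q‖ ≤ β).card : ℝ) ≤ K * d.c.nL * β ^ ((D : ℝ) - σ) * α ^ σ
  r2 : ∀ (z0 α α' : ℝ) (p q : V D), 1 / N ≤ α' → α' ≤ α → α ≤ 1 →
    (((d.c.E.filter fun ω => |ω.2 - z0| ≤ α' ∧ ‖d.c.pos ω - q‖ ≤ α' ∧
      ‖d.c.e ω.1 - p‖ ≤ α).image fun ω => cell α' (d.c.e ω.1)).card : ℝ) ≤ K * (α / α') ^ σ
  r3 : ∀ (z β β' : ℝ) (q : V D), 1 / N ≤ β' → β' ≤ β → β ≤ 1 →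
    (((d.c.E.filter fun ω => ω.2 = z ∧ ‖d.u ω - q‖ ≤ β).image
      fun ω => cell β' (d.u ω)).card : ℝ) ≤ K * (β / β') ^ ((m : ℝ) - σ)

def Lip1 (d : Dat D) (K r : ℝ) : Prop :=
  ∀ ω ∈ d.c.E, ∀ ω' ∈ d.c.E, ω.2 = ω'.2 →
    ‖d.s ω - d.s ω'‖ ≤ K * (‖d.c.pos ω - d.c.pos ω'‖ + r)

def LipF (d : Dat D) (K t : ℝ) : Prop :=
  ∀ ω ∈ d.c.E, ∀ ω' ∈ d.c.E, ‖d.P ω.2 - d.P ω'.2‖ ≤ K * (|ω.2 - ω'.2| + t)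

def Lin (d : Dat D) (K η ξ : ℝ) : Prop :=
  (∀ n i j, (i ∉ d.S ∨ j ∈ d.S) → d.κ n i j = 0) ∧ (∀ n, ‖d.κ n‖ ≤ K) ∧
    ∀ ω ∈ d.c.E, ∀ ω' ∈ d.c.E, cz η ω.2 = cz η ω'.2 →
      ‖d.P ω'.2 - d.P ω.2 - (ω'.2 - ω.2) • d.κ (cz η ω.2)‖ ≤ ξ * η

def HBp (d : Dat D) (η ξ : ℝ) : Prop :=
  ∀ ω ∈ d.c.E, ∀ ω' ∈ d.c.E, ω.2 = ω'.2 → ‖d.c.pos ω - d.c.pos ω'‖ ≤ η →
    ‖mv (d.κ (cz η ω.2)) (d.c.e ω.1 - d.c.e ω'.1)‖ ≤ ξ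

def Lip2 (d : Dat D) (K η ξ : ℝ) : Prop :=
  ∀ ω ∈ d.c.E, ∀ ω' ∈ d.c.E, ω.2 = ω'.2 →
    ‖d.st η ω - d.st η ω'‖ ≤ K * (‖d.u ω - d.u ω'‖ + ξ)

def S0 (σ : ℝ) (m : ℕ) (d : Dat D) (N K : ℝ) : Prop := Reg σ m d N N K

def S1 (σ : ℝ) (m : ℕ) (d : Dat D) (N K : ℝ) : Prop :=
  Reg σ m d N N K ∧ Lip1 d K (N ^ (-(2 / 5) : ℝ))

def S2 (σ : ℝ) (m : ℕ) (d : Dat D) (N K : ℝ) : Prop :=
  Reg σ m d N (N ^ (1 / 3 : ℝ)) K ∧ Lip1 d K (N ^ (-(2 / 5) : ℝ)) ∧ LipF d K (N ^ (-(1 / 3) : ℝ))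

def S3 (a σ : ℝ) (m : ℕ) (d : Dat D) (N K : ℝ) : Prop :=
  S2 σ m d N K ∧ Lin d K (N ^ (-(1 / 6) : ℝ)) (N ^ (-a))

def S4 (a σ : ℝ) (m : ℕ) (d : Dat D) (N K : ℝ) : Prop :=
  S3 a σ m d N K ∧ HBp d (N ^ (-(1 / 6) : ℝ)) (N ^ (-(a / 2)))

def S5 (a σ : ℝ) (m : ℕ) (d : Dat D) (N K : ℝ) : Prop :=
  S4 a σ m d N K ∧ Lip2 d K (N ^ (-(1 / 6) : ℝ)) (N ^ (-(a / 2)))

/-- one direction `v` lies in all grain planes -/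
def S6 (a σ : ℝ) (m : ℕ) (d : Dat D) (N K : ℝ) : Prop :=
  Reg σ m d N (N ^ (1 / 3 : ℝ)) K ∧ ∃ (v : V D) (j0 : Fin D), j0 ∉ d.S ∧ v j0 = 1 ∧ ‖v‖ ≤ K ∧
    ∀ ω ∈ d.c.E, ‖mv (d.P ω.2) v‖ ≤ N ^ (-(a / 8))

def Step (A B : Dat D → ℝ → ℝ → Prop) : Prop :=
  ∀ ε' > (0 : ℝ), ∃ ε > (0 : ℝ), ∃ N0 : ℝ, ∀ N ≥ N0, ∀ d, A d N (N ^ ε) → ∃ d', B d' N (N ^ ε')

def Inh (A : Dat D → ℝ → ℝ → Prop) : Prop :=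
  ∀ ε > (0 : ℝ), ∀ N0 : ℝ, ∃ N ≥ N0, ∃ d, A d N (N ^ ε)

theorem Step.inh {A B : Dat D → ℝ → ℝ → Prop} (h : Step A B) (hA : Inh A) : Inh B := by
  intro ε' hε' N0
  obtain ⟨ε, hε, N1, h1⟩ := h ε' hε'
  obtain ⟨N, hN, d, hd⟩ := hA ε hε (max N0 N1)
  obtain ⟨d', hd'⟩ := h1 N (le_trans (le_max_right _ _) hN) d hd
  exact ⟨N, le_trans (le_max_left _ _) hN, d', hd'⟩

/-- upper box dimension -/
def ubd {X : Type} [PseudoMetricSpace X] (A : Set X) : ENNReal :=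
  ⨅ (s : NNReal) (_ : ∃ C : ℝ, ∀ r : ℝ, 0 < r → r ≤ 1 → ∃ F : Finset X,
    (F.card : ℝ) ≤ C * r ^ (-(s : ℝ)) ∧ A ⊆ ⋃ p ∈ F, Metric.closedBall p r), (s : ENNReal)

/-- packing dimension -/
def pdim {X : Type} [PseudoMetricSpace X] (A : Set X) : ENNReal :=
  ⨅ (B : ℕ → Set X) (_ : A ⊆ ⋃ n, B n), ⨆ n, ubd (B n)

/-- the affine line `a + ℝ e` (`e` a unit vector): orthogonal projection onto its direction and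
its point closest to the origin -/
def lineOf {n : ℕ} (a e : EuclideanSpace ℝ (Fin n)) :
    (EuclideanSpace ℝ (Fin n) →L[ℝ] EuclideanSpace ℝ (Fin n)) × EuclideanSpace ℝ (Fin n) :=
  ((innerSL ℝ e).smulRight e, a - (inner ℝ e a) • e)

end

end Vale.Agent.P127
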