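import Vale.Agent.P127.Fou.NC
import Vale.Agent.P127.Fou.Fej
import Vale.Agent.P127.Fou.Spec
import Vale.Agent.P127.Fou.Pair
import Vale.Agent.P127.Fou.Pig
import Vale.Agent.P127.Fou.Sel

/-! # P127 Fou (SUB-LEAD): Fourier duality.  See notes/P127.md, part FOU. -/

namespace Vale.Agent.P127

open Finset
open scoped Classical

theorem ctr_fou (k : ℕ) {K N β : ℝ} (hK : 2 ≤ K) (hN : 0 < N) (hβ : 0 < β)
    (hb : 1 ≤ β * K ^ 63) :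
    4 * K * (2000 * ((k + 1 : ℕ) : ℝ) ^ 2 * K * (K * N) / β ^ 2) ^ (k + 1) / (β ^ 2 * (K * N ^ k)) ≤
      K ^ (128 + (k + 1) * (139 + 2 * (k + 1))) * N := by
  have K0 : 0 < K := by linarith
  have two : ∀ a : ℕ, (2 : ℝ) ^ a ≤ K ^ a := fun a => pow_le_pow_left₀ (by norm_num) hK a
  have b1 : 1 / β ^ 2 ≤ K ^ 126 := by
    rw [div_le_iff₀ (by positivity)]
    calc (1 : ℝ) ≤ (β * K ^ 63) ^ 2 := one_le_pow₀ hb
      _ = _ := by ring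
  have b2 : ((k + 1 : ℕ) : ℝ) ≤ K ^ (k + 1) := by
    refine le_trans ?_ (two _)
    exact_mod_cast (Nat.lt_two_pow_self).le
  have b3 : (2000 : ℝ) ≤ K ^ 11 := le_trans (by norm_num) (two 11)
  have b4 : (4 : ℝ) ≤ K ^ 2 := le_trans (by norm_num) (two 2)
  calc _ = 4 * (1 / β ^ 2) * (2000 * ((k + 1 : ℕ) : ℝ) ^ 2 * K ^ 2 * (1 / β ^ 2)) ^ (k + 1) * N := by
        rw [show 2000 * ((k + 1 : ℕ) : ℝ) ^ 2 * K * (K * N) / β ^ 2 =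
          2000 * ((k + 1 : ℕ) : ℝ) ^ 2 * K ^ 2 * (1 / β ^ 2) * N by ring, mul_pow _ N, pow_succ N]
        field_simp
    _ ≤ K ^ 2 * K ^ 126 * (K ^ 11 * (K ^ (k + 1)) ^ 2 * K ^ 2 * K ^ 126) ^ (k + 1) * N := by gcongr
    _ = _ := by ring

theorem cm_fou {K : ℝ} (hK : 2 ≤ K) (C : ℝ) (a b c : ℕ) (h : C ≤ 2 ^ a) (h' : a + b ≤ c) :
    C * K ^ b ≤ K ^ c :=
  calc C * K ^ b ≤ K ^ a * K ^ b := by
        gcongr
        exact h.trans (pow_le_pow_left₀ (by norm_num) hK a)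
    _ ≤ K ^ c := by
        rw [← pow_add]
        exact pow_le_pow_right₀ (by linarith) h'

theorem log_fou {K N Q : ℝ} (hK : 2 ≤ K) (hKN : K ^ 50 ≤ N) (hlog : Real.logb 2 N ≤ K) (Q0 : 0 < Q)
    (Q2 : Q ≤ 2 * K * N) : Real.logb 2 (8 * (K ^ 15) ^ 3 * Q) + 1 ≤ K ^ 15 := by
  have K0 : 0 < K := by linarith
  have N0 : 0 < N := lt_of_lt_of_le (by positivity) hKN
  have e1 : 16 * K ^ 46 ≤ N := (cm_fou hK 16 4 _ _ (by norm_num) (by omega)).trans hKN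
  have e2 : 8 * (K ^ 15) ^ 3 * Q ≤ N ^ 2 :=
    calc 8 * (K ^ 15) ^ 3 * Q ≤ 8 * (K ^ 15) ^ 3 * (2 * K * N) := by gcongr
      _ = 16 * K ^ 46 * N := by ring
      _ ≤ N * N := by gcongr
      _ = _ := by ring
  have e3 := Real.logb_le_logb_of_le (b := 2) one_lt_two (by positivity) e2
  rw [Real.logb_pow] at e3
  have e4 := cm_fou hK 4 2 1 15 (by norm_num) (by norm_num)
  push_cast at e3
  linarith

theorem low_fou {K N Nk Q P a0 S cI cT : ℝ} (hK : 2 ≤ K) (N0 : 0 < N) (Nk0 : 0 < Nk) (Q0 : 0 < Q)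
    (P0 : 0 < P) (a00 : 0 < a0) (T0 : 0 ≤ cT) (hT : cT ≤ K * N) (P2 : P ≤ 15 * K * Q)
    (hI : Nk * N * a0 / K ≤ cI) (fej : cI ^ 2 * Q ^ 2 ≤ 16 * cT * P * (K * a0) * S) :
    N * (Q * a0) / K ^ 15 ≤ S / (K * Nk) ^ 2 := by
  have K0 : 0 < K := by linarith
  have e1 : (Nk * N * a0 / K) ^ 2 * Q ^ 2 ≤ cI ^ 2 * Q ^ 2 := by gcongr
  have S0 : 0 ≤ S := by
    by_contra h
    have : 16 * cT * P * (K * a0) * S ≤ 0 :=
      mul_nonpos_of_nonneg_of_nonpos (by positivity) (not_le.1 h).le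
    have : 0 < (Nk * N * a0 / K) ^ 2 * Q ^ 2 := by positivity
    linarith
  have e2 : 16 * cT * P * (K * a0) * S ≤ 16 * (K * N) * (15 * K * Q) * (K * a0) * S := by gcongr
  have e3 : 240 * K ^ 7 ≤ K ^ 15 := cm_fou hK 240 8 _ _ (by norm_num) (by norm_num)
  have e4 : N * (Q * a0) * (K * Nk) ^ 2 * (N * Q * a0 / K ^ 4) ≤
      S * (240 * K ^ 7) * (N * Q * a0 / K ^ 4) :=
    calc _ = (Nk * N * a0 / K) ^ 2 * Q ^ 2 := by field_simp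
      _ ≤ 16 * (K * N) * (15 * K * Q) * (K * a0) * S := e1.trans (fej.trans e2)
      _ = _ := by field_simp; ring
  rw [div_le_div_iff₀ (by positivity) (by positivity)]
  exact (le_of_mul_le_mul_right e4 (by positivity)).trans (by gcongr)

theorem end_fou (k : ℕ) {σ N K Z0 P Q : ℝ} {c2 c3 : ℕ} {τ υ : Type} (T : Finset τ) (Y : Finset υ)
    (ψ : τ → Fin (k + 1) → ℝ) (g : υ → Fin (k + 1) → ℝ) (h0 : 0 < σ) (hc3 : c2 ≤ c3)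
    (hc4 : 129 ≤ c3) (hc5 : 128 + (k + 1) * (139 + 2 * (k + 1)) ≤ c3) (hK : 2 ≤ K) (N1 : 1 ≤ N)
    (hT : (T.card : ℝ) ≤ K * N) (hY : (Y.card : ℝ) ≤ K * N ^ k) (hψ : ∀ t ∈ T, ‖ψ t‖ ≤ K * N)
    (hg : ∀ y ∈ Y, ‖g y‖ ≤ K)
    (hs : ∀ p : Fin (k + 1) → ℝ, ((Y.filter fun y => ‖g y - p‖ ≤ 1 / N).card : ℝ) ≤ K)
    (Q1 : K * N ≤ Q) (Q2 : Q ≤ 2 * K * N) (P3 : 28 * Q ≤ P) (P2 : P ≤ 15 * K * Q)
    (Ξ : Finset ℤ) (PP : Finset (ℤ × τ)) (hZ : 0 < Z0)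
    (hΞ : ∀ i ∈ Ξ, Q / K ^ c2 ≤ |(i : ℝ)| ∧ |(i : ℝ)| ≤ Q) (hPP : PP ⊆ Ξ ×ˢ T)
    (hv : ∀ p ∈ PP, 1 / (2 * (K ^ 15) ^ 2) ≤ ‖VY Y g (((p.1 : ℝ) / P) • ψ p.2)‖ / (K * N ^ k))
    (hPc : N * Z0 / (8 * (K ^ 15) ^ 2) ≤ PP.card)
    (hnc : ∀ i0 r : ℝ, 1 ≤ r →
      ((Ξ.filter fun i : ℤ => |(i : ℝ) - i0| ≤ r).card : ℝ) ≤ K ^ 15 * Z0 * (r / Q) ^ σ) :
    SumD σ N (K ^ (4 * c3 + 1)) T ψ := by
  have K0 : 0 < K := by linarith
  have K1 : 1 ≤ K := by linarith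
  have N0 : 0 < N := by linarith
  have KN : N ≤ K * N := le_mul_of_one_le_left N0.le K1
  have Q0 : 0 < Q := by linarith
  have P0 : 0 < P := by linarith
  have Y0 : 0 < K * N ^ k := by positivity
  have cm := cm_fou hK
  have pr := fou_pair Y g PP (fun p => ((p.1 : ℝ) / P) • ψ p.2) (al := 1 / (2 * (K ^ 15) ^ 2))
    (by positivity) Y0 hY fun p hp => (le_div_iff₀ Y0).1 (hv p hp)
  obtain ⟨β, hβ⟩ : ∃ β, β = (1 / (2 * (K ^ 15) ^ 2)) ^ 2 / 2 := ⟨_, rfl⟩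
  rw [← hβ] at pr
  have β1 : β * (8 * K ^ 60) = 1 := by rw [hβ]; field_simp; norm_num
  have β0 : 0 < β := by rw [hβ]; positivity
  have β2 : 1 ≤ β * K ^ 63 := by
    rw [← β1]
    gcongr
    exact cm 8 3 _ _ (by norm_num) (by norm_num)
  have β3 : β ≤ 1 := by nlinarith [one_le_pow₀ (n := 60) K1]
  obtain ⟨Ctr, hC, hCs⟩ := fou_spec (Nat.le_add_left 1 k) Y g β0 β3 K1 N1 KN Y0 hY hg hs
  have L1 : ∀ (C : ℝ), C ≤ 16 → C * K ≤ K ^ c3 := fun C h => by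
    simpa using cm C 4 1 c3 (by linarith) (by omega)
  refine fou_sel T ψ (L := K ^ c3) h0 N1 (one_le_pow₀ K1) hZ P0
    (P2.trans (by gcongr; exact L1 _ (by norm_num))) (KN.trans Q1)
    (Q2.trans (by gcongr; exact L1 _ (by norm_num)))
    (by rw [← pow_mul]; exact cm 2 1 _ _ (by norm_num) (by omega))
    (hT.trans (by gcongr; exact le_self_pow₀ K1 (by omega))) Ξ
    (fun i hi => ⟨le_trans (by gcongr) (hΞ i hi).1, (hΞ i hi).2⟩)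
    (fun i0 r hr => (hnc i0 r hr).trans (by gcongr; omega)) Ctr
    (hC.trans ((ctr_fou k hK N0 β0 β2).trans (by gcongr))) _
    ((filter_subset _ _).trans (product_subset_product hPP hPP)) (le_trans ?_ pr) fun q hq' => ?_
  · have e1 : 512 * K ^ 120 ≤ K ^ c3 := cm 512 9 _ _ (by norm_num) (by omega)
    calc _ ≤ (N * Z0) ^ 2 / (512 * K ^ 120) := by gcongr
      _ = β * (N * Z0 / (8 * (K ^ 15) ^ 2)) ^ 2 := by rw [hβ]; field_simp; norm_num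
      _ ≤ _ := by gcongr
  · obtain ⟨q1, q2⟩ := mem_filter.1 hq'
    refine hCs _ ?_ q2
    have e : ∀ p ∈ PP, ‖((p.1 : ℝ) / P) • ψ p.2‖ ≤ 1 / 2 * (K * N) := fun p hp => by
      obtain ⟨p1, p2⟩ := mem_product.1 (hPP hp)
      rw [norm_smul, Real.norm_eq_abs, abs_div, abs_of_pos P0]
      refine mul_le_mul ?_ (hψ _ p2) (norm_nonneg _) (by norm_num)
      rw [div_le_iff₀ P0]
      linarith [(hΞ _ p1).2]
    linarith [norm_sub_le (((q.1.1 : ℝ) / P) • ψ q.1.2) (((q.2.1 : ℝ) / P) • ψ q.2.2),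
      e _ (mem_product.1 q1).1, e _ (mem_product.1 q1).2]

theorem fou (k : ℕ) {σ : ℝ} (h0 : 0 < σ) (h1 : σ ≤ 1) : ∃ c : ℕ,
    ∀ (N K : ℝ) (τ υ : Type) (T : Finset τ) (Y : Finset υ) (ψ : τ → Fin (k + 1) → ℝ)
      (g : υ → Fin (k + 1) → ℝ) (A : Finset ℤ) (At : τ → Finset ℤ) (I : Finset (τ × υ × ℤ)),
    2 ≤ K → K ^ c ≤ N → Real.logb 2 N ≤ K → (T.card : ℝ) ≤ K * N → (Y.card : ℝ) ≤ K * N ^ k →
    (∀ t ∈ T, ‖ψ t‖ ≤ K * N) → (∀ y ∈ Y, ‖g y‖ ≤ K) →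
    (∀ p : Fin (k + 1) → ℝ, ((Y.filter fun y => ‖g y - p‖ ≤ 1 / N).card : ℝ) ≤ K) →
    (∀ α ∈ A, |(α : ℝ)| ≤ K * N) →
    (∀ a r : ℝ, 1 ≤ r → ((A.filter fun α : ℤ => |(α : ℝ) - a| ≤ r).card : ℝ) ≤ K * r ^ (1 - σ)) →
    (∀ t ∈ T, ((At t).card : ℝ) ≤ K * N ^ (1 - σ) ∧ ∀ α ∈ At t, |(α : ℝ)| ≤ K * N) →
    I ⊆ T ×ˢ Y ×ˢ A → N ^ ((k : ℝ) + 2 - σ) / K ≤ I.card →
    (∀ q ∈ I, ∃ α' ∈ At q.1, |(q.2.2 : ℝ) + ∑ j, ψ q.1 j * g q.2.1 j - α'| ≤ K) →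
    SumD σ N (K ^ c) T ψ := by
  obtain ⟨c2, hc2⟩ := exists_nat_ge (47 / σ)
  rw [div_le_iff₀ h0] at hc2
  obtain ⟨c3, hc3, hc4, hc5⟩ : ∃ c3 : ℕ, c2 ≤ c3 ∧ 129 ≤ c3 ∧
      128 + (k + 1) * (139 + 2 * (k + 1)) ≤ c3 :=
    ⟨c2 + 129 + (128 + (k + 1) * (139 + 2 * (k + 1))), by omega, by omega, by omega⟩
  refine ⟨4 * c3 + 1, fun N K τ υ T Y ψ g A At I hK hKN hlog hT hY hψ hg hs hA hAr hAt hI hIc hq => ?_⟩
  have K0 : 0 < K := by linarith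
  have K1 : 1 ≤ K := by linarith
  have pw : ∀ {a b : ℕ}, a ≤ b → K ^ a ≤ K ^ b := fun h => pow_le_pow_right₀ K1 h
  have cm := cm_fou hK
  have N1 : 1 ≤ N := (one_le_pow₀ K1).trans hKN
  have N0 : 0 < N := by linarith
  have KN : N ≤ K * N := le_mul_of_one_le_left N0.le K1
  obtain ⟨Q, Q1, Q2⟩ : ∃ Q : ℕ, K * N ≤ Q ∧ (Q : ℝ) ≤ 2 * K * N :=
    ⟨⌈K * N⌉₊, Nat.le_ceil _, by linarith [Nat.ceil_lt_add_one (by positivity : 0 ≤ K * N)]⟩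
  obtain ⟨W, W1, W2⟩ : ∃ W : ℕ, 14 * K ≤ W ∧ (W : ℝ) ≤ 15 * K :=
    ⟨⌈14 * K⌉₊, Nat.le_ceil _, by linarith [Nat.ceil_lt_add_one (by positivity : 0 ≤ 14 * K)]⟩
  have Q0 : (0 : ℝ) < Q := by linarith
  obtain ⟨P, P1, P2⟩ : ∃ P : ℕ, 14 * K * Q ≤ P ∧ (P : ℝ) ≤ 15 * K * Q :=
    ⟨W * Q, by push_cast; gcongr, by push_cast; gcongr⟩
  have P3 : 28 * (Q : ℝ) ≤ P := by nlinarith
  have P0 : (0 : ℝ) < P := by linarith
  obtain ⟨a0, ha0⟩ : ∃ a0, a0 = N ^ (1 - σ) := ⟨_, rfl⟩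
  have a00 : 0 < a0 := ha0 ▸ Real.rpow_pos_of_pos N0 _
  have hAc : (A.card : ℝ) ≤ K * (K * a0) := by
    have := hAr 0 (K * N) (N1.trans KN)
    rw [filter_true_of_mem fun α hα => by simpa using hA α hα, Real.mul_rpow K0.le N0.le,
      ← ha0] at this
    refine this.trans ?_
    gcongr
    exact Real.rpow_le_self_of_one_le K1 (by linarith)
  have hIc' : N ^ k * N * a0 / K ≤ I.card := by
    rwa [show (k : ℝ) + 2 - σ = k + 1 + (1 - σ) by ring, Real.rpow_add N0, Real.rpow_add N0,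
      Real.rpow_natCast, Real.rpow_one, ← ha0] at hIc
  rw [← ha0] at hAt
  have Y0 : 0 < K * N ^ k := by positivity
  have fej := fou_fej (P := P) (Nat.cast_pos.1 Q0) K1 P1 (M := K * N) (by linarith) T Y ψ g A At I
    hAt hI hq
  obtain ⟨Z0, Ξ, PP, hZ, hΞ, hPP, hv, hPc, hnc⟩ := fou_pig T (Q := Q) (fun i => ‖hatZ P A i‖ ^ 2)
    (fun i t => ‖VY Y g (((i : ℝ) / P) • ψ t)‖ / (K * N ^ k)) (N := N) (B := Q * a0) (L := K ^ 15)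
    (R := K ^ c2) h0 N0 (by positivity) (one_le_pow₀ K1) (one_le_pow₀ K1)
    ((pw (by omega)).trans (hKN.trans (KN.trans Q1)))
    (by
      rw [← pow_mul, ← Real.rpow_natCast K c2, ← Real.rpow_mul K0.le]
      refine (cm 4 2 _ 47 (by norm_num) (by norm_num)).trans ?_
      rw [← Real.rpow_natCast]
      exact Real.rpow_le_rpow_of_exponent_le K1 (by exact_mod_cast hc2))
    (log_fou hK ((pw (by omega)).trans hKN) hlog Q0 Q2)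
    (hT.trans (by gcongr; exact le_self_pow₀ K1 (by norm_num))) (fun _ => by positivity)
    (fun i t => ⟨by positivity, (div_le_one Y0).2 ((norm_VY _ _ _).trans hY)⟩)
    (by
      simp only [div_pow _ (K * N ^ k), mul_div_assoc' _ _ ((K * N ^ k) ^ 2), ← sum_div]
      exact low_fou hK N0 (by positivity) Q0 P0 a00 (Nat.cast_nonneg _) hT P2 hIc' fej)
    (fun i0 r hr => by
      refine (fou_nc (Nat.cast_pos.1 P0) (Nat.cast_le.1 (by push_cast; linarith :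
        ((2 * Q : ℕ) : ℝ) ≤ P)) h0 h1 A hA (by linarith) hAr i0 r hr).trans ?_
      have e1 : 960 * K ^ 4 ≤ K ^ 15 := cm 960 10 _ _ (by norm_num) (by norm_num)
      calc _ ≤ 64 * K * (15 * K * Q) * (K * (K * a0)) * (r / Q) ^ σ := by
            have e2 : r / P ≤ r / Q := div_le_div_of_nonneg_left (by linarith) Q0 (by linarith)
            have e3 : 0 ≤ r / P := div_nonneg (by linarith) P0.le
            gcongr 64 * K * ?_ * ?_ * ?_ ^ σ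
        _ = 960 * K ^ 4 * (Q * a0) * (r / Q) ^ σ := by ring
        _ ≤ _ := by gcongr)
  exact end_fou k T Y ψ g h0 hc3 hc4 hc5 hK N1 hT hY hψ hg hs Q1 Q2 P3 P2 Ξ PP hZ hΞ hPP hv hPc hnc

end Vale.Agent.P127
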