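import Vale.Agent.P127.SPL
import Vale.Agent.P127.Api2

/-! # P127 Lin0: assembling the windows.  See notes/P127.md, part LIN0.
eta = N^(-1/6), Nw = 1/eta. First pop1 for omega.2 (every height has mass at least nL / K1) and S2.res, so that WinD applies to the refined data with K1 in place of K. For each good window n
spl (with N := Nw, K := K1^c) gives T' and kv; define kappa n i j from kv through the map em (zero outside rows S and inside columns S), kappa n = 0 for the other windows; keep the omega whose height lies in T'. -/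

namespace Vale.Agent.P127

open Finset
open scoped Classical

/-- the graph of the entries of `P` listed by `em`, in units of `η ^ 2`, over the window `n` -/
noncomputable def gph {D q : ℕ} (d : Dat D) (η z0 : ℝ) (em : Fin q → Fin D × Fin D) (z : ℝ) :
    Fin (q + 1) → ℝ :=
  Fin.cons ((z - z0) / η ^ 2) fun l => (d.P z (em l).1 (em l).2 - d.P z0 (em l).1 (em l).2) / η ^ 2

/-- in many windows the graph has many additive coincidences -/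
def WinD {D : ℕ} (σ : ℝ) (m q c : ℕ) : Prop :=
  ∃ N0 : ℝ, ∀ N ≥ N0, ∀ (d : Dat D) (K : ℝ), S2 σ m d N K → 2 ≤ K → Real.logb 2 N ≤ K →
    K ^ c ≤ N ^ (1 / 6 : ℝ) → ∃ (em : Fin q → Fin D × Fin D) (W : Finset ℤ),
    (∀ i ∈ d.S, ∀ j ∉ d.S, ∃ l, em l = (i, j)) ∧ N ^ (1 / 6 : ℝ) / K ^ c ≤ W.card ∧
    ∀ n ∈ W, ∃ z0 ∈ d.c.E.image Prod.snd, cz (N ^ (-(1 / 6) : ℝ)) z0 = n ∧
      SumD σ (N ^ (1 / 6 : ℝ)) (K ^ c)
        ((d.c.E.image Prod.snd).filter fun z => cz (N ^ (-(1 / 6) : ℝ)) z = n)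
        (gph d (N ^ (-(1 / 6) : ℝ)) z0 em)

theorem mono_lin0 {n : ℕ} {τ : Type} {δ N K K' : ℝ} {T : Finset τ} {φ : τ → Fin n → ℝ}
    (h : SumD δ N K T φ) (hN : 0 < N) (hK : 0 < K) (hK' : K ≤ K') : SumD δ N K' T φ := by
  obtain ⟨Z0, X, G, Sx, h0, h1, h2, h3, h4, h5⟩ := h
  refine ⟨Z0, X, G, Sx, h0, le_trans (by gcongr) h1, fun x hx => (h2 x hx).trans hK',
    fun x hx x' hx' e => le_trans (by gcongr) (h3 x hx x' hx' e), fun x0 r hr => (h4 x0 r hr).trans ?_,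
    fun x hx => ?_⟩
  · have : 0 < r := lt_of_lt_of_le (by positivity) hr
    gcongr
  · obtain ⟨a1, a2, a3, a4⟩ := h5 x hx
    refine ⟨a1.trans (by gcongr), a2, le_trans (by gcongr) a3, fun p hp => ?_⟩
    obtain ⟨s, hs, e⟩ := a4 p hp
    exact ⟨s, hs, e.trans hK'⟩

theorem pop_lin0 {Ω β : Type} [inst : DecidableEq β] (E : Finset Ω) (f : Ω → β) {R : ℝ}
    (hR : ((E.image f).card : ℝ) ≤ R) : ∃ E' ⊆ E, (E.card : ℝ) / 2 ≤ E'.card ∧ ∀ ω ∈ E',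
      (E.card : ℝ) / (2 * R) ≤ ((E'.filter fun ω' => f ω' = f ω).card : ℝ) := by
  obtain rfl : inst = fun a b => Classical.propDecidable (a = b) := Subsingleton.elim _ _
  exact pop1 E f hR

theorem fib_lin0 {Ω β : Type} [DecidableEq β] (E : Finset Ω) (f : Ω → β) (Y : Finset β) {M : ℝ}
    (h : ∀ y ∈ Y, M ≤ ((E.filter fun ω => f ω = y).card : ℝ)) : Y.card * M ≤ E.card := by
  rw [← nsmul_eq_mul]
  refine (card_nsmul_le_sum _ _ _ h).trans ?_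
  rw [← Nat.cast_sum, sum_card_fiberwise_eq_card_filter]
  exact Nat.cast_le.2 (card_filter_le _ _)

variable {D q : ℕ} {d : Dat D} {η x K Ks z0 : ℝ} {em : Fin q → Fin D × Fin D}

theorem lip_lin0 (hη : 0 < η) (hK : 1 ≤ K) (lip : LipF d K (η ^ 2)) {t t' : ℝ}
    (ht : t ∈ d.c.E.image Prod.snd) (ht' : t' ∈ d.c.E.image Prod.snd) :
    ‖gph d η z0 em t - gph d η z0 em t'‖ ≤ K * (|gph d η z0 em t 0 - gph d η z0 em t' 0| + 1) := by
  obtain ⟨ω, hω, rfl⟩ := mem_image.1 ht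
  obtain ⟨ω', hω', rfl⟩ := mem_image.1 ht'
  have h0 := abs_nonneg (gph d η z0 em ω.2 0 - gph d η z0 em ω'.2 0)
  have h2 : 0 < η ^ 2 := by positivity
  refine (pi_norm_le_iff_of_nonneg (by positivity)).2 fun l => ?_
  rw [Pi.sub_apply, Real.norm_eq_abs]
  refine Fin.cases (by nlinarith) (fun l => ?_) l
  have h1 : |d.P ω.2 (em l).1 (em l).2 - d.P ω'.2 (em l).1 (em l).2| ≤ K * (|ω.2 - ω'.2| + η ^ 2) :=
    ((norm_le_pi_norm ((d.P ω.2 - d.P ω'.2) (em l).1) (em l).2).trans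
      (norm_le_pi_norm (d.P ω.2 - d.P ω'.2) (em l).1)).trans (lip ω hω ω' hω')
  simp only [gph, Fin.cons_succ, Fin.cons_zero]
  rw [← sub_div, ← sub_div, sub_sub_sub_cancel_right, sub_sub_sub_cancel_right, abs_div, abs_div,
    abs_of_pos h2, div_le_iff₀ h2, mul_assoc, add_mul, div_mul_cancel₀ _ h2.ne', one_mul]
  exact h1

theorem bd_lin0 (hη : 0 < η) (hx : η * x = 1) (hx1 : 1 ≤ x) (hK : 1 ≤ K) (lip : LipF d K (η ^ 2))
    {t : ℝ} (ht : t ∈ d.c.E.image Prod.snd) (h0 : z0 ∈ d.c.E.image Prod.snd)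
    (hc : cz η t = cz η z0) : ‖gph d η z0 em t‖ ≤ 2 * K * x := by
  have h1 := lip_lin0 (z0 := z0) (em := em) hη hK lip ht h0
  have h2 : gph d η z0 em z0 = 0 := by
    funext l
    refine Fin.cases ?_ (fun l => ?_) l <;> simp [gph]
  have h3 : |gph d η z0 em t 0| ≤ x := by
    simp only [gph, Fin.cons_zero]
    rw [abs_div, abs_of_pos (by positivity : 0 < η ^ 2), div_le_iff₀ (by positivity)]
    refine (cz_close hη hc).trans (le_of_eq ?_)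
    rw [sq, ← mul_assoc, mul_comm x, hx, one_mul]
  rw [h2, sub_zero, Pi.zero_apply, sub_zero] at h1
  nlinarith

theorem hts_lin0 {N : ℝ} (hη : 0 < η) (hx : η * x = 1) (h : Pre d.c N (x ^ 2) K) {T : Finset ℝ}
    (hT : T ⊆ d.c.E.image Prod.snd) (a r : ℝ) (hr : 1 ≤ r) :
    ((T.filter fun t => |gph d η z0 em t 0 - a| ≤ r).card : ℝ) ≤ K * r := by
  have h2 : 0 < η ^ 2 := by positivity
  have e : η ^ 2 * x ^ 2 = 1 := by rw [← mul_pow, hx, one_pow]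
  have h1 := h.hts (z0 + a * η ^ 2) (r * η ^ 2) (by
    rw [← eq_one_div_of_mul_eq_one_left e]
    exact le_mul_of_one_le_left h2.le hr)
  rw [mul_assoc, mul_assoc, e, mul_one] at h1
  refine le_trans (Nat.cast_le.2 (card_le_card fun t ht => ?_)) h1
  obtain ⟨h3, h4⟩ := mem_filter.1 ht
  obtain ⟨ω, hω, rfl⟩ := mem_image.1 (hT h3)
  refine mem_filter.2 ⟨(mem_product.1 (h.sub hω)).2, ?_⟩
  simp only [gph, Fin.cons_zero] at h4
  have e2 : ω.2 - (z0 + a * η ^ 2) = ((ω.2 - z0) / η ^ 2 - a) * η ^ 2 := by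
    field_simp
    ring
  rw [e2, abs_mul, abs_of_pos h2]
  exact mul_le_mul_of_nonneg_right h4 h2.le

theorem mat_lin0 (hη : 0 < η) (gr : Gr d.S d.P) (hem : ∀ i ∈ d.S, ∀ j ∉ d.S, ∃ l, em l = (i, j))
    (κv : Fin (q + 1) → ℝ) : ∃ κ : Mt D, (∀ i j, (i ∉ d.S ∨ j ∈ d.S) → κ i j = 0) ∧ ‖κ‖ ≤ ‖κv‖ ∧
      ∀ t t', ‖d.P t' - d.P t - (t' - t) • κ‖ ≤ ‖gph d η z0 em t' - gph d η z0 em t -
        (gph d η z0 em t' 0 - gph d η z0 em t 0) • κv‖ * η ^ 2 := by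
  have h2 : 0 < η ^ 2 := by positivity
  have hk : ∀ i j, ∃ y : ℝ, ((i ∉ d.S ∨ j ∈ d.S) ∧ y = 0) ∨
      ((i ∈ d.S ∧ j ∉ d.S) ∧ ∃ l, em l = (i, j) ∧ y = κv l.succ) := fun i j => by
    by_cases h : i ∈ d.S ∧ j ∉ d.S
    · obtain ⟨l, hl⟩ := hem i h.1 j h.2
      exact ⟨_, Or.inr ⟨h, l, hl, rfl⟩⟩
    · exact ⟨0, Or.inl ⟨by tauto, rfl⟩⟩
  choose κ hκ using hk
  refine ⟨κ, fun i j h => ?_, ?_, fun t t' => ?_⟩
  · rcases hκ i j with h1 | h1
    · exact h1.2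
    · tauto
  · refine (pi_norm_le_iff_of_nonneg (norm_nonneg _)).2 fun i =>
      (pi_norm_le_iff_of_nonneg (norm_nonneg _)).2 fun j => ?_
    rcases hκ i j with h1 | ⟨_, l, _, h1⟩
    · rw [h1.2, norm_zero]
      exact norm_nonneg _
    · rw [h1]
      exact norm_le_pi_norm κv _
  · refine (pi_norm_le_iff_of_nonneg (by positivity)).2 fun i =>
      (pi_norm_le_iff_of_nonneg (by positivity)).2 fun j => ?_
    simp only [Pi.sub_apply, Pi.smul_apply, smul_eq_mul]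
    rcases hκ i j with ⟨h1, h3⟩ | ⟨_, l, hl, h1⟩
    · have h4 : d.P t' i j = d.P t i j := by
        by_cases hi : i ∈ d.S
        · have hj : j ∈ d.S := h1.resolve_left (not_not.2 hi)
          rw [(gr t').2.1 i hi j hj, (gr t).2.1 i hi j hj]
        · rw [(gr t').1 i hi j, (gr t).1 i hi j]
      rw [h3, h4, sub_self, mul_zero, sub_zero, norm_zero]
      positivity
    · have h4 := norm_le_pi_norm (gph d η z0 em t' - gph d η z0 em t -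
        (gph d η z0 em t' 0 - gph d η z0 em t 0) • κv) l.succ
      refine le_trans (le_of_eq ?_) (mul_le_mul_of_nonneg_right h4 h2.le)
      rw [← Real.norm_of_nonneg h2.le, ← norm_mul]
      congr 1
      simp only [Pi.sub_apply, Pi.smul_apply, smul_eq_mul, gph, Fin.cons_succ, Fin.cons_zero, hl, h1]
      field_simp
      ring

theorem fin_lin0 {σ a N K' m0 w y : ℝ} {m : ℕ} (h : S2 σ m d N K) (hN : 1 ≤ N) (hK : 0 < K)
    (hK' : K ≤ K') (hm0 : 0 ≤ m0) (hy : 0 ≤ y)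
    (hf : ∀ ω ∈ d.c.E, m0 ≤ ((d.c.E.filter fun ω' => ω'.2 = ω.2).card : ℝ))
    (W : Finset ℤ) (hW : w ≤ W.card) (T : ℤ → Finset ℝ) (κ : ℤ → Mt D)
    (hT : ∀ n, T n ⊆ (d.c.E.image Prod.snd).filter fun z => cz (N ^ (-(1 / 6) : ℝ)) z = n)
    (hc : ∀ n ∈ W, y ≤ (T n).card) (h1 : ∀ n i j, (i ∉ d.S ∨ j ∈ d.S) → κ n i j = 0)
    (h2 : ∀ n, ‖κ n‖ ≤ K') (h3 : ∀ n, ∀ t ∈ T n, ∀ t' ∈ T n,
      ‖d.P t' - d.P t - (t' - t) • κ n‖ ≤ N ^ (-a) * N ^ (-(1 / 6) : ℝ))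
    (hm : d.c.nL * N ^ (1 / 3 : ℝ) / K' ≤ w * y * m0) : ∃ d', S3 (D := D) a σ m d' N K' := by
  obtain ⟨E2, hE2⟩ : ∃ E2, E2 = d.c.E.filter fun ω => ω.2 ∈ T (cz (N ^ (-(1 / 6) : ℝ)) ω.2) :=
    ⟨_, rfl⟩
  have hmem : ∀ ω, ω ∈ E2 ↔ ω ∈ d.c.E ∧ ω.2 ∈ T (cz (N ^ (-(1 / 6) : ℝ)) ω.2) := fun ω => by
    rw [hE2, mem_filter]
  have a1 := fib_lin0 (E2.image Prod.snd) (cz (N ^ (-(1 / 6) : ℝ))) W (M := y) fun n hn =>
    (hc n hn).trans (Nat.cast_le.2 (card_le_card fun t ht => by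
      obtain ⟨b1, b2⟩ := mem_filter.1 (hT n ht)
      obtain ⟨ω, hω, rfl⟩ := mem_image.1 b1
      exact mem_filter.2 ⟨mem_image_of_mem _ ((hmem ω).2 ⟨hω, b2 ▸ ht⟩), b2⟩))
  have a2 := fib_lin0 E2 Prod.snd (E2.image Prod.snd) (M := m0) fun z hz => by
    obtain ⟨ω, hω, rfl⟩ := mem_image.1 hz
    obtain ⟨b1, b2⟩ := (hmem ω).1 hω
    refine (hf ω b1).trans (Nat.cast_le.2 (card_le_card fun ω' hω' => ?_))
    obtain ⟨b3, b4⟩ := mem_filter.1 hω'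
    exact mem_filter.2 ⟨(hmem ω').2 ⟨b3, b4 ▸ b2⟩, b4⟩
  have a3 := h.res hN hK hK' (E' := E2) (fun ω hω => ((hmem ω).1 hω).1) (hm.trans
    ((mul_le_mul_of_nonneg_right ((mul_le_mul_of_nonneg_right hW hy).trans a1) hm0).trans a2))
  refine ⟨{ d.res E2 with κ := κ }, ⟨a3.1.setκ κ, a3.2.1, a3.2.2⟩, h1, h2, fun ω hω ω' hω' e => ?_⟩
  exact h3 _ _ ((hmem ω).1 hω).2 _ (e ▸ ((hmem ω').1 hω').2)

theorem rp_lin0 {N : ℝ} (hN : 1 ≤ N) : N ^ (-(1 / 6) : ℝ) * N ^ (1 / 6 : ℝ) = 1 ∧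
    N ^ (1 / 3 : ℝ) = (N ^ (1 / 6 : ℝ)) ^ 2 ∧ N ^ (-(1 / 3) : ℝ) = (N ^ (-(1 / 6) : ℝ)) ^ 2 := by
  have h0 : 0 < N := by linarith
  refine ⟨?_, ?_, ?_⟩
  · rw [← Real.rpow_add h0, neg_add_cancel, Real.rpow_zero]
  · rw [sq, ← Real.rpow_add h0]
    norm_num
  · rw [sq, ← Real.rpow_add h0]
    norm_num

theorem err_lin0 {N B κ a : ℝ} (hN : 1 ≤ N) (hB : B ≤ N ^ (κ / 12)) (ha : a ≤ κ / 12) :
    B * (N ^ (1 / 6 : ℝ)) ^ (1 - κ) * (N ^ (-(1 / 6) : ℝ)) ^ 2 ≤ N ^ (-a) * N ^ (-(1 / 6) : ℝ) := by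
  have h0 : 0 < N := by linarith
  refine (mul_le_mul_of_nonneg_right (mul_le_mul_of_nonneg_right hB (by positivity))
    (by positivity)).trans ?_
  rw [← (rp_lin0 hN).2.2, ← Real.rpow_mul h0.le, ← Real.rpow_add h0, ← Real.rpow_add h0,
    ← Real.rpow_add h0]
  exact Real.rpow_le_rpow_of_exponent_le hN (by linarith)

theorem lin0 {D m q c : ℕ} {σ : ℝ} (h0 : 0 < σ) (h : WinD (D := D) σ m q c) :
    ∃ a > (0 : ℝ), a ≤ 1 / 100 ∧ Step (D := D) (S2 σ m) (S3 a σ m) := by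
  obtain ⟨κ0, hκ0, hκ1, cs, hs⟩ := spl q h0
  obtain ⟨N1, hw⟩ := h
  refine ⟨min (κ0 / 12) (1 / 100), by positivity, min_le_right _ _, fun ε' hε' => ?_⟩
  obtain ⟨ε, hε, N2, hsm⟩ := small 1 (3 + 2 * c + 2 * (c + 2) * cs)
    (b := min ε' (κ0 / 12)) (by positivity)
  obtain ⟨N3, hbg⟩ := big 2 hε
  refine ⟨ε, hε, max N1 (max N2 N3), fun N hN d hd => ?_⟩
  simp only [ge_iff_le, max_le_iff] at hN
  obtain ⟨hN2, b1⟩ := hsm ε hε le_rfl N hN.2.1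
  obtain ⟨_, hK, b2⟩ := hbg N hN.2.2
  generalize N ^ ε = K at hd b1 hK b2
  have hN1 : 1 ≤ N := by linarith
  have hK1 : 1 ≤ K := by linarith
  have hK0 : 0 < K := by linarith
  rw [one_mul] at b1
  have b3 := b1.trans (Real.rpow_le_rpow_of_exponent_le hN1 (min_le_left _ _))
  have b4 := b1.trans (Real.rpow_le_rpow_of_exponent_le hN1 (min_le_right _ _))
  have b5 := b4.trans (Real.rpow_le_rpow_of_exponent_le hN1 (by linarith : κ0 / 12 ≤ 1 / 6))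
  obtain ⟨r1, r2, r3⟩ := rp_lin0 hN1
  have hη : 0 < N ^ (-(1 / 6) : ℝ) := by positivity
  have hx1 : 1 ≤ N ^ (1 / 6 : ℝ) := Real.one_le_rpow hN1 (by norm_num)
  have hH : 1 ≤ N ^ (1 / 3 : ℝ) := Real.one_le_rpow hN1 (by norm_num)
  have hpre := hd.1.good.toPre
  have hnL := hpre.nL_pos
  have hKK : 2 * K ≤ K ^ 2 := by nlinarith
  obtain ⟨E1, hE1, c1, c2⟩ := pop_lin0 d.c.E Prod.snd (R := K * N ^ (1 / 3 : ℝ))
    (le_trans (Nat.cast_le.2 (card_le_card fun z hz => by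
      obtain ⟨ω, hω, rfl⟩ := mem_image.1 hz
      exact (mem_product.1 (hpre.sub hω)).2)) (hpre.cardZ hH))
  have hd1 : S2 σ m (d.res E1) N (K ^ 2) := hd.res hN1 hK0 (by linarith) hE1 (by
    refine le_trans ?_ ((div_le_div_of_nonneg_right hpre.mass zero_le_two).trans c1)
    rw [div_div]
    exact div_le_div_of_nonneg_left (by positivity) (by positivity) (by linarith))
  have hf : ∀ ω ∈ E1, d.c.nL / K ^ 3 ≤ ((E1.filter fun ω' => ω'.2 = ω.2).card : ℝ) := fun ω hω => by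
    refine le_trans ?_ ((div_le_div_of_nonneg_right hpre.mass (by positivity)).trans (c2 ω hω))
    have e : d.c.nL * N ^ (1 / 3 : ℝ) / K / (2 * (K * N ^ (1 / 3 : ℝ))) = d.c.nL / (2 * K * K) := by
      field_simp
    rw [e]
    exact div_le_div_of_nonneg_left hnL.le (by positivity) (by nlinarith)
  have p1 : ∀ j, j ≤ 3 + 2 * c + 2 * (c + 2) * cs → K ^ j ≤ K ^ (3 + 2 * c + 2 * (c + 2) * cs) :=
    fun j hj => pow_le_pow_right₀ hK1 hj
  have p2 : (K ^ 2) ^ c ≤ K ^ (3 + 2 * c + 2 * (c + 2) * cs) := by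
    rw [← pow_mul]
    exact p1 _ (by omega)
  have p3 : ((K ^ 2) ^ (c + 2)) ^ cs ≤ K ^ (3 + 2 * c + 2 * (c + 2) * cs) := by
    rw [← pow_mul, ← pow_mul, ← mul_assoc]
    exact p1 _ (by omega)
  have hK2 : 2 ≤ K ^ 2 := by linarith
  have p4 : 2 * K ^ 2 ≤ (K ^ 2) ^ (c + 2) :=
    le_trans (by nlinarith) (pow_le_pow_right₀ (by linarith) (by omega : 2 ≤ c + 2))
  have p5 : (K ^ 2) ^ c ≤ (K ^ 2) ^ (c + 2) := pow_le_pow_right₀ (by linarith) (by omega)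
  have hlog : 0 ≤ Real.logb 2 N := Real.logb_nonneg one_lt_two hN1
  obtain ⟨em, W, hem, hW, hn⟩ := hw N hN.1 _ _ hd1 hK2 (by linarith) (p2.trans b5)
  have hlip := hd1.2.2
  have hpre1 := hd1.1.good.toPre
  rw [r3] at hlip
  rw [r2] at hpre1
  have key : ∀ n : ℤ, ∃ (T : Finset ℝ) (κ : Mt D),
      T ⊆ (((d.res E1).c.E.image Prod.snd).filter fun z => cz (N ^ (-(1 / 6) : ℝ)) z = n) ∧
      (n ∈ W → N ^ (1 / 6 : ℝ) / ((K ^ 2) ^ (c + 2)) ^ cs ≤ T.card) ∧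
      (∀ i j, (i ∉ (d.res E1).S ∨ j ∈ (d.res E1).S) → κ i j = 0) ∧ ‖κ‖ ≤ N ^ ε' ∧
      ∀ t ∈ T, ∀ t' ∈ T, ‖(d.res E1).P t' - (d.res E1).P t - (t' - t) • κ‖ ≤
        N ^ (-min (κ0 / 12) (1 / 100)) * N ^ (-(1 / 6) : ℝ) := fun n => by
    by_cases hnW : n ∈ W
    · obtain ⟨z0, hz0, hc, hS⟩ := hn n hnW
      obtain ⟨T, hT, t1, κv, t2, t3⟩ := hs _ ((K ^ 2) ^ (c + 2)) ℝ _ _ (by linarith) (p3.trans b5)
        (fun a r hr => (hts_lin0 hη r1 hpre1 (filter_subset _ _) a r hr).trans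
          (mul_le_mul_of_nonneg_right (by linarith) (by linarith)))
        (fun t ht t' ht' => (lip_lin0 hη (by linarith) hlip (mem_filter.1 ht).1
          (mem_filter.1 ht').1).trans (mul_le_mul_of_nonneg_right (by linarith) (by positivity)))
        (fun t ht => (bd_lin0 hη r1 hx1 (by linarith) hlip (mem_filter.1 ht).1 hz0
          ((mem_filter.1 ht).2.trans hc.symm)).trans (mul_le_mul_of_nonneg_right p4 (by linarith)))
        (mono_lin0 hS (by linarith) (by positivity) p5)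
      obtain ⟨κ, k1, k2, k3⟩ := mat_lin0 (z0 := z0) hη hd1.1.gr hem κv
      exact ⟨T, κ, hT, fun _ => t1, k1, k2.trans (t2.trans (p3.trans b3)), fun t ht t' ht' =>
        (k3 t t').trans ((mul_le_mul_of_nonneg_right (t3 t' ht' t ht) (by positivity)).trans
          (err_lin0 hN1 (p3.trans b4) (min_le_left _ _)))⟩
    · exact ⟨∅, 0, empty_subset _, fun e => absurd e hnW, fun _ _ _ => rfl,
        by rw [norm_zero]; positivity, fun t ht => absurd ht (notMem_empty t)⟩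
  choose T κ k1 k2 k3 k4 k5 using key
  refine fin_lin0 hd1 hN1 (by positivity) ((p1 2 (by omega)).trans b3) (by positivity)
    (by positivity) hf W hW T κ k1 k2 k3 k4 k5 ?_
  have e : N ^ (1 / 6 : ℝ) / (K ^ 2) ^ c * (N ^ (1 / 6 : ℝ) / ((K ^ 2) ^ (c + 2)) ^ cs) *
      (d.c.nL / K ^ 3) = d.c.nL * N ^ (1 / 3 : ℝ) / K ^ (3 + 2 * c + 2 * (c + 2) * cs) := by
    rw [r2, ← pow_mul, ← pow_mul, ← pow_mul, ← mul_assoc 2, pow_add, pow_add]
    field_simp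
  rw [e]
  exact div_le_div_of_nonneg_left (mul_nonneg hnL.le (by positivity)) (by positivity) b3

end Vale.Agent.P127
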