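import Vale.Agent.P127.Lin1.Win

/-! # P127 Lin1 (SUB-LEAD): triangles.  See notes/P127.md, part LIN1. -/

namespace Vale.Agent.P127

open Finset
open scoped Classical

theorem win1 {D m : ℕ} {σ : ℝ} (h0 : 0 < σ) (hm : m + 1 = D) : ∃ c, WinD (D := D) σ m D c := by
  obtain ⟨c, c1, hc⟩ := L1.win_core D h0
  refine ⟨c, 1, fun N hN d K hS hK _ hKN => ?_⟩
  have N0 : 0 < N := by linarith
  obtain ⟨j0, hj⟩ : ∃ j0, d.Sᶜ = {j0} := card_eq_one.1 (by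
    rw [card_compl, Fintype.card_fin, hS.1.card_S]
    omega)
  have hm' : ∀ j, j ∈ d.S ↔ j ≠ j0 := fun j => by
    rw [Ne, ← mem_singleton, ← hj, mem_compl, not_not]
  have η0 : 0 < N ^ (-(1 / 6) : ℝ) := Real.rpow_pos_of_pos N0 _
  have e1 : N ^ (1 / 6 : ℝ) = 1 / N ^ (-(1 / 6) : ℝ) := by
    rw [Real.rpow_neg N0.le, one_div _⁻¹, inv_inv]
  have e2 : (N ^ (-(1 / 6) : ℝ)) ^ 2 = N ^ (-(1 / 3) : ℝ) := by
    rw [← Real.rpow_mul_natCast N0.le]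
    norm_num
  have mo : ∀ a b : ℝ, a ≤ b → N ^ a ≤ N ^ b := fun a b => Real.rpow_le_rpow_of_exponent_le hN
  rw [e1, le_div_iff₀ η0] at hKN
  have H : L1.Hy σ m d j0 N (N ^ (1 / 3 : ℝ)) K (N ^ (-(1 / 6) : ℝ)) := by
    refine ⟨hS.1, hm, hm', fun ω h1 ω' h2 h3 => (hS.2.1 ω h1 ω' h2 h3).trans ?_, e2 ▸ hS.2.2, hN,
      hK, η0, le_trans ?_ hKN, ?_, ?_⟩
    · rw [e2]
      exact mul_le_mul_of_nonneg_left (add_le_add le_rfl (mo _ _ (by norm_num))) (by linarith)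
    · exact mul_le_mul_of_nonneg_right (le_self_pow₀ (by linarith) (by omega)) η0.le
    · rw [e2, ← Real.rpow_add N0, add_neg_cancel, Real.rpow_zero]
    · rw [e2, one_div, ← Real.rpow_neg_one]
      exact mo _ _ (by norm_num)
  obtain ⟨W, h1, h2⟩ := hc m d j0 N _ K _ H hKN
  rw [e1]
  exact ⟨fun l => (l, j0), W, fun i _ j hj => ⟨i, by rw [not_not.1 fun k => hj ((hm' j).2 k)]⟩,
    h1, h2⟩

theorem lin1 {D m : ℕ} {σ : ℝ} (h0 : 0 < σ) (hm : m + 1 = D) :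
    ∃ a > (0 : ℝ), a ≤ 1 / 100 ∧ Step (D := D) (S2 σ m) (S3 a σ m) := by
  obtain ⟨c, hc⟩ := win1 h0 hm
  exact lin0 h0 hc

end Vale.Agent.P127
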