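import Vale.Agent.P127.Lin0
import Vale.Agent.P127.Fou
import Vale.Agent.P127.Lin2.Sum

/-! # P127 Lin2 (SUB-LEAD): grains of codimension one.  See notes/P127.md, part LIN2. -/

namespace Vale.Agent.P127

open Finset
open scoped Classical

theorem win2 (k : ℕ) {σ : ℝ} (h0 : 0 < σ) (h1 : σ ≤ 1) : ∃ c, WinD (D := k + 1) σ 1 k c := by
  obtain ⟨c, hc⟩ := sum_l2 k h0 h1
  refine ⟨c + 9, 1, fun N hN d K hS hK hlog hKN => ?_⟩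
  have hN1 : (1 : ℝ) ≤ N := hN
  have hN0 : 0 < N := by linarith
  have e6 : (N ^ (1 / 6 : ℝ)) ^ 6 = N := by
    rw [← Real.rpow_natCast, ← Real.rpow_mul hN0.le]
    norm_num
  have e2 : (N ^ (1 / 6 : ℝ)) ^ 2 = N ^ (1 / 3 : ℝ) := by
    rw [← Real.rpow_natCast, ← Real.rpow_mul hN0.le]
    norm_num
  have e1 : N ^ (-(1 / 6) : ℝ) = (N ^ (1 / 6 : ℝ))⁻¹ := Real.rpow_neg hN0.le _
  have l1 : N ^ (-(2 / 5) : ℝ) ≤ (N ^ (1 / 6 : ℝ))⁻¹ :=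
    e1 ▸ Real.rpow_le_rpow_of_exponent_le hN1 (by norm_num)
  have l2 : N ^ (-(1 / 3) : ℝ) ≤ (N ^ (1 / 6 : ℝ))⁻¹ :=
    e1 ▸ Real.rpow_le_rpow_of_exponent_le hN1 (by norm_num)
  have w1 : 1 ≤ N ^ (1 / 6 : ℝ) := Real.one_le_rpow hN1 (by norm_num)
  have wN : N ^ (1 / 6 : ℝ) ≤ N := by
    nth_rewrite 2 [← Real.rpow_one N]
    exact Real.rpow_le_rpow_of_exponent_le hN1 (by norm_num)
  obtain ⟨i0, hi0⟩ := card_eq_one.1 hS.1.card_S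
  have h : Hy σ d (N ^ (1 / 6 : ℝ)) K i0 := by
    refine ⟨by rw [e6, e2]; exact hS.1, fun ω a ω' a' e => (hS.2.1 ω a ω' a' e).trans ?_,
      fun ω a ω' a' => (hS.2.2 ω a ω' a').trans ?_, hi0, w1, hK⟩ <;> gcongr
  rw [e1]
  generalize N ^ (1 / 6 : ℝ) = w at *
  have hK1 : (1 : ℝ) ≤ K := by linarith
  have p1 : K ^ c ≤ K ^ (c + 9) := pow_le_pow_right₀ hK1 (by omega)
  have p2 : 6 * K ^ 6 ≤ K ^ (c + 9) := by
    have : (2 : ℝ) ^ 3 ≤ K ^ 3 := pow_le_pow_left₀ zero_le_two hK 3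
    calc 6 * K ^ 6 ≤ K ^ 3 * K ^ 6 := by gcongr; linarith
      _ = K ^ 9 := by ring
      _ ≤ K ^ (c + 9) := pow_le_pow_right₀ hK1 (by omega)
  obtain ⟨W, hW1, hW2⟩ := h.wins
  refine ⟨fun l => (i0, i0.succAbove l), W, fun i hi j hj => ?_, le_trans (by gcongr) hW1,
    fun n hn => ?_⟩
  · rw [hi0, mem_singleton] at hi hj
    obtain ⟨l, rfl⟩ := Fin.exists_succAbove_eq hj
    exact ⟨l, by rw [hi]⟩
  · obtain ⟨z0, a1, a2, a3⟩ := hc h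
      ((Real.logb_le_logb_of_le one_lt_two h.w0 wN).trans hlog) (p1.trans hKN) n (hW2 n hn)
    exact ⟨z0, a1, a2, a3.mono_l2 h.w0 (by positivity) p1⟩

theorem lin2 (k : ℕ) {σ : ℝ} (h0 : 0 < σ) (h1 : σ ≤ 1) :
    ∃ a > (0 : ℝ), a ≤ 1 / 100 ∧ Step (D := k + 1) (S2 σ 1) (S3 a σ 1) := by
  obtain ⟨c, hc⟩ := win2 k h0 h1
  exact lin0 h0 hc

end Vale.Agent.P127
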