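import Vale.Agent.P127.Lab
import Vale.Agent.P127.G1
import Vale.Agent.P127.LF1
import Vale.Agent.P127.LF2
import Vale.Agent.P127.Lin1
import Vale.Agent.P127.Lin2
import Vale.Agent.P127.HB
import Vale.Agent.P127.Fa
import Vale.Agent.P127.End1
import Vale.Agent.P127.End2
import Vale.Agent.P127.Proj
import Vale.Agent.P127.Kill
import Vale.Agent.P127.Final

/-! # P127 Main: induction on the dimension (helper13). -/

namespace Vale.Agent.P127

open Finset
open scoped Classical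

theorem pk_mono {D : ℕ} {σ σ' : ℝ} (h : PK D σ) (hσ : σ ≤ σ') : PK D σ' := by
  intro ε hε
  obtain ⟨η, hη, N0, h1⟩ := h ε hε
  refine ⟨η, hη, max N0 1, fun N hN c hc => ?_⟩
  have hN1 : 1 ≤ N := le_trans (le_max_right _ _) hN
  refine le_trans ?_ (h1 N (le_trans (le_max_left _ _) hN) c hc)
  exact Real.rpow_le_rpow_of_exponent_le hN1 (by linarith)

theorem pk_lim {D : ℕ} {σ : ℝ} (h : ∀ τ > σ, PK D τ) : PK D σ := by
  intro ε hε
  obtain ⟨η, hη, N0, h1⟩ := h (σ + ε / 2) (by linarith) (ε / 2) (by linarith)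
  refine ⟨η, hη, N0, fun N hN c hc => ?_⟩
  have := h1 N hN c hc
  rwa [show (D : ℝ) + 1 - (σ + ε / 2) - ε / 2 = D + 1 - σ - ε by ring] at this

theorem exists_crit {D : ℕ} (h : ¬ PK D 0) :
    ∃ σ > (0 : ℝ), PK D σ ∧ ∀ τ < σ, ¬ PK D τ := by
  set A : Set ℝ := {s | PK D s} with hA
  have hne : A.Nonempty := ⟨_, pk_top D⟩
  have hbd : BddBelow A := ⟨0, fun s hs => by
    by_contra hc
    exact h (pk_mono hs (le_of_lt (not_le.mp hc)))⟩
  have hP : PK D (sInf A) := pk_lim fun τ hτ => by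
    obtain ⟨s, hs, hlt⟩ := exists_lt_of_csInf_lt hne hτ
    exact pk_mono hs hlt.le
  refine ⟨sInf A, ?_, hP, fun τ hτ hτ' => absurd (csInf_le hbd hτ') (not_le.mpr hτ)⟩
  by_contra hc
  exact h (pk_mono hP (not_lt.mp hc))

theorem inh_top {D : ℕ} {σ : ℝ} (h : ∀ τ < σ, ¬ PK D τ) : Inh (D := D) (CK σ D) := by
  intro ε hε N0
  have h1 := h (σ - ε) (by linarith)
  unfold PK at h1
  push Not at h1
  obtain ⟨ε1, hε1, h2⟩ := h1
  obtain ⟨N, hN, c, hc, hlt⟩ := h2 ε hε (max N0 1)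
  have hN1 : 1 ≤ N := le_trans (le_max_right _ _) hN
  have hN0 : 0 < N := by linarith
  refine ⟨N, le_trans (le_max_left _ _) hN,
    ⟨c, univ, fun _ i j => if i = j then 1 else 0, fun _ => 0⟩, by simp, hc, ?_, ?_⟩
  · intro z
    refine ⟨fun i hi => absurd (mem_univ i) hi, fun i _ j _ => rfl, fun i j => ?_⟩
    simp only [card_univ, Fintype.card_fin, Nat.sub_self, pow_zero]
    split_ifs <;> simp
  · have hu : ∀ ω, Dat.u (⟨c, univ, fun _ i j => if i = j then 1 else 0, fun _ => 0⟩ : Dat D) ω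
        = c.pos ω := by
      intro ω
      funext i
      simp [Dat.u, mv]
    simp only [hu]
    refine hlt.le.trans ?_
    have e : N ^ ε * N * N ^ ((D : ℝ) - σ) = N ^ (ε + 1 + ((D : ℝ) - σ)) := by
      rw [Real.rpow_add hN0, Real.rpow_add hN0, Real.rpow_one]
    rw [e]
    exact Real.rpow_le_rpow_of_exponent_le hN1 (by linarith)

theorem inh_S1 {D m : ℕ} {σ : ℝ} (hP : PK D σ) (h0 : 0 < σ) (hm : 1 ≤ m)
    (hI : Inh (D := D) (CK σ m)) (hNI : ¬ Inh (D := D) (CK σ (m - 1))) :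
    Inh (D := D) (S1 σ m) :=
  (g1 hm hNI).inh ((lab hP h0 (inh_le hI)).inh hI)

theorem case_line {D m : ℕ} {σ : ℝ} (hlow : PK D 0) (hP : PK (D + 1) σ) (h0 : 0 < σ) (hm : 1 ≤ m)
    (hmD : m = D) (hI : Inh (D := D + 1) (CK σ m)) (hNI : ¬ Inh (D := D + 1) (CK σ (m - 1))) :
    False := by
  have hm' : m + 1 = D + 1 := by rw [hmD]
  obtain ⟨a, ha, ha1, hl⟩ := lin1 h0 hm'
  exact proj hlow h0 ha ha1 ((end1 h0 hm' ha ha1).inh ((fa hm hNI ha ha1).inh
    ((hb hm hNI ha ha1).inh (hl.inh ((lf1 h0 hm').inh (inh_S1 hP h0 hm hI hNI))))))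

theorem case_plane {σ : ℝ} (hlow : PK 2 0) (hP : PK 3 σ) (h0 : 0 < σ)
    (hI : Inh (D := 3) (CK σ 1)) (hNI : ¬ Inh (D := 3) (CK σ (1 - 1))) : False := by
  have h1 : σ ≤ 1 := by simpa using inh_le hI
  obtain ⟨a, ha, ha1, hl⟩ := lin2 2 h0 h1
  exact proj hlow h0 ha ha1 ((end2 h0 ha ha1).inh ((fa le_rfl hNI ha ha1).inh
    ((hb le_rfl hNI ha ha1).inh (hl.inh ((lf2 3 h0).inh (inh_S1 hP h0 le_rfl hI hNI))))))

theorem not_inh_zero {D : ℕ} {σ : ℝ} (h0 : 0 < σ) : ¬ Inh (D := D) (CK σ 0) := fun h => by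
  have := inh_le h
  simp at this
  linarith

theorem inh_pred {D : ℕ} {σ : ℝ} (hP : PK D σ) (h0 : 0 < σ) (hD : 1 ≤ D)
    (hI : Inh (D := D) (CK σ D)) : Inh (D := D) (CK σ (D - 1)) := by
  by_contra hNI
  exact kill0 h0 (inh_S1 hP h0 hD hI hNI)

theorem pk_one : PK 1 0 := by
  by_contra h
  obtain ⟨σ, h0, hP, hc⟩ := exists_crit h
  exact not_inh_zero h0 (inh_pred hP h0 le_rfl (inh_top hc))

theorem pk_two : PK 2 0 := by
  by_contra h
  obtain ⟨σ, h0, hP, hc⟩ := exists_crit h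
  have h1 : Inh (D := 2) (CK σ 1) := inh_pred hP h0 (by norm_num) (inh_top hc)
  exact case_line pk_one hP h0 le_rfl rfl h1 (not_inh_zero h0)

theorem pk_three : PK 3 0 := by
  by_contra h
  obtain ⟨σ, h0, hP, hc⟩ := exists_crit h
  have h2 : Inh (D := 3) (CK σ 2) := inh_pred hP h0 (by norm_num) (inh_top hc)
  have h1 : Inh (D := 3) (CK σ 1) := by
    by_contra hNI
    exact case_line pk_two hP h0 (by norm_num) rfl h2 hNI
  exact case_plane pk_two hP h0 h1 (not_inh_zero h0)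

end Vale.Agent.P127
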