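import Vale.Agent.P127.SPL.Hyp
import Vale.Agent.P118D.SP

/-! # P127 SPL (SUB-LEAD): the sum-product theorem for Lipschitz graphs.  See notes/P127.md, part SPL. -/

namespace Vale.Agent.P127

open Finset
open scoped Classical

/-- many scalars `x` for which many sums `φ t + x φ t'` fall in few balls -/
def SumD {n : ℕ} {τ : Type} (δ N K : ℝ) (T : Finset τ) (φ : τ → Fin n → ℝ) : Prop :=
  ∃ (Z0 : ℝ) (X : Finset ℝ) (G : ℝ → Finset (τ × τ)) (Sx : ℝ → Finset (Fin n → ℝ)), 0 < Z0 ∧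
    Z0 / K ≤ X.card ∧ (∀ x ∈ X, |x| ≤ K) ∧ (∀ x ∈ X, ∀ x' ∈ X, x ≠ x' → 1 / (K * N) ≤ |x - x'|) ∧
    (∀ x0 r : ℝ, 1 / N ≤ r → ((X.filter fun x => |x - x0| ≤ r).card : ℝ) ≤ K * Z0 * r ^ δ) ∧
    ∀ x ∈ X, ((Sx x).card : ℝ) ≤ K * N ∧ G x ⊆ T ×ˢ T ∧ N ^ 2 / K ≤ (G x).card ∧
      ∀ p ∈ G x, ∃ s ∈ Sx x, ‖φ p.1 + x • φ p.2 - s‖ ≤ K

theorem spl_rp {K : ℝ} (hK : 1 ≤ K) {a : ℝ} {k : ℕ} (h : a ≤ k) : (K ^ 5) ^ a ≤ K ^ (5 * k) := by
  rw [pow_mul, ← Real.rpow_natCast (K ^ 5) k]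
  exact Real.rpow_le_rpow_of_exponent_le (one_le_pow₀ hK) h

/-- many points of the graph are near a line -/
theorem spl_core (n : ℕ) {δ : ℝ} (hδ : 0 < δ) : ∃ κ > (0 : ℝ), κ ≤ 1 ∧ ∃ c : ℕ,
    ∀ (N K : ℝ) (τ : Type) (T : Finset τ) (φ : τ → Fin (n + 1) → ℝ), 2 ≤ K → K ^ c ≤ N →
    SplB T φ K → (∀ t ∈ T, ∀ t' ∈ T, ‖φ t - φ t'‖ ≤ K * (|φ t 0 - φ t' 0| + 1)) →
    (∀ t ∈ T, ‖φ t‖ ≤ K * N) → SumD δ N K T φ →
    (∀ q v : Fin (n + 1) → ℝ, (((T.image fun t => splF 1 (φ t)).filter fun a => ∃ l : ℝ, ∀ j,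
      |(a j : ℝ) - q j - l * v j| ≤ (K ^ 5 * N) ^ (1 - κ)).card : ℝ) ≤ N / K ^ c) → False := by
  obtain ⟨κ, hκ, hκ1, c0, H⟩ := P118.D.sp (n + 1) 2 hδ one_pos
  obtain ⟨c1, hc1⟩ : ∃ c1, c1 = 13 + 4 * (n + 1) + 5 * ⌈δ⌉₊ := ⟨_, rfl⟩
  refine ⟨κ, hκ, hκ1, c1 * c0, ?_⟩
  rintro N K τ T φ hK hN h1 hL hB ⟨Z0, X, G, Sx, hZ0, hX1, hX2, hX3, hX4, hX5⟩ hl
  have hK0 : 0 < K := by linarith
  have hK1 : 1 ≤ K := by linarith
  have hN1 : 1 ≤ N := (one_le_pow₀ hK1).trans hN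
  have hN0 : 0 < N := by linarith
  have hp : ∀ {a b : ℕ}, a ≤ b → K ^ a ≤ K ^ b := fun h => pow_le_pow_right₀ hK1 h
  have hpN : ∀ {a b : ℕ}, a ≤ b → K ^ a * N ≤ K ^ b * N := fun h =>
    mul_le_mul_of_nonneg_right (hp h) hN0.le
  have hq : ∀ a b : ℕ, a + 1 = b → 2 * (K ^ a * N) ≤ K ^ b * N := fun a b h => by
    have : 0 ≤ K ^ a * N := by positivity
    rw [← h, pow_succ]
    nlinarith
  have hq1 : ∀ a : ℕ, 1 ≤ K ^ a * N := fun a => one_le_mul_of_one_le_of_one_le (one_le_pow₀ hK1) hN1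
  have h8 : 8 * K ≤ K ^ 4 := by
    have : (2 : ℝ) ^ 3 ≤ K ^ 3 := pow_le_pow_left₀ (by norm_num) hK 3
    nlinarith
  have hKN : K * N = K ^ 1 * N := by rw [pow_one]
  have hKc : K ≤ K ^ c1 := by simpa using hp (show 1 ≤ c1 by omega)
  have hT : (T.card : ℝ) ≤ K ^ 2 * N := by
    refine (h1 0 (K * N) (hKN ▸ hq1 1) T Subset.rfl fun t ht => ?_).trans_eq (by ring)
    rw [sub_zero]
    exact (norm_le_pi_norm (φ t) 0).trans (hB t ht)
  have hinj := spl_inj (lam := K ^ 3 * N) (by positivity)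
    (hKN.trans_le (hpN (show 1 ≤ 3 by norm_num))) hX3
  obtain ⟨xz, hxz⟩ : ∃ xz : ℤ → ℝ, ∀ x ∈ X, xz ⌊x * (K ^ 3 * N)⌋ = x :=
    ⟨_, fun x hx => hinj.leftInvOn_invFunOn hx⟩
  have hz : ∀ x ∈ X, |(⌊x * (K ^ 3 * N)⌋ : ℝ)| ≤ K ^ 5 * N := fun x hx => by
    have a1 := abs_le.1 (spl_fl (x * (K ^ 3 * N)))
    have a2 : |x * (K ^ 3 * N)| ≤ K ^ 4 * N := by
      rw [abs_mul, abs_of_pos (show 0 < K ^ 3 * N by positivity)]
      exact (mul_le_mul_of_nonneg_right (hX2 x hx) (by positivity)).trans_eq (by ring)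
    have a3 := abs_le.1 a2
    exact abs_le.2 ⟨by linarith [hq 4 5 rfl, hq1 4], by linarith [hq 4 5 rfl, hq1 4]⟩
  refine H 1 (K ^ 5 * N) (K ^ c1) (K ^ 5 * N) Z0 (T.image fun t => splF 1 (φ t))
    (T.image fun t => splF (K ^ 2) (φ t)) (X.image fun x : ℝ => ⌊x * (K ^ 3 * N)⌋)
    (fun z => (G (xz z)).image fun p => cell 1 fun j => (splF 1 (φ p.1) j : ℝ) +
      z / (K ^ 2 * (K ^ 3 * N)) * splF (K ^ 2) (φ p.2) j)
    (fun z => (G (xz z)).image fun p => (splF 1 (φ p.1), splF (K ^ 2) (φ p.2)))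
    zero_le_one (by norm_num) (hK.trans hKc) ?_ hZ0 ?_ ?_ ?_ ?_ ?_ ?_ ?_ ?_ ?_ ?_ ?_
  · rw [← pow_mul]
    exact hN.trans (by simpa using hpN (show 0 ≤ 5 by norm_num))
  · rw [Real.rpow_one]
    exact le_mul_of_one_le_left (by positivity) (one_le_pow₀ hK1)
  · intro a ha a' ha' j
    obtain ⟨t, ht, rfl⟩ := mem_image.1 ha
    obtain ⟨t', ht', rfl⟩ := mem_image.1 ha'
    have a1 := abs_le.1 (splF_abs zero_le_one (hB t ht) j)
    have a2 := abs_le.1 (splF_abs zero_le_one (hB t' ht') j)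
    have a3 := hpN (show 3 ≤ 5 by norm_num)
    exact abs_le.2 ⟨by linarith [hq 1 2 rfl, hq 2 3 rfl, hq1 1],
      by linarith [hq 1 2 rfl, hq 2 3 rfl, hq1 1]⟩
  · intro b hb j
    obtain ⟨t, ht, rfl⟩ := mem_image.1 hb
    have a1 := splF_abs (R := K ^ 2) (by positivity) (hB t ht) j
    have a3 := hpN (show 4 ≤ 5 by norm_num)
    linarith [hq 3 4 rfl, hq1 3]
  · refine (Nat.cast_le.2 card_image_le).trans (hT.trans ((hpN (show 2 ≤ 5 by norm_num)).trans ?_))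
    exact le_mul_of_one_le_left (by positivity) (one_le_pow₀ hK1)
  · intro r hr p
    refine (spl_ball h1 hr p).trans ?_
    rw [Real.rpow_one, ← mul_assoc]
    refine mul_le_mul_of_nonneg_right (le_trans ?_ (hp (show 2 ≤ c1 by omega))) (by linarith)
    nlinarith
  · intro r hr hr'
    obtain ⟨F, a1, a2⟩ := spl_cov hK1 hL (fun t ht => (hB t ht).trans
      (hKN ▸ hpN (show 1 ≤ 5 by norm_num))) hr hr'
    refine ⟨F, a1.trans ?_, a2⟩
    rw [Real.rpow_one]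
    refine mul_le_mul_of_nonneg_right (le_trans ?_ (hp (show 2 + 4 * (n + 1) ≤ c1 by omega)))
      (by positivity)
    rw [pow_add K, pow_mul]
    exact mul_le_mul (by nlinarith) (pow_le_pow_left₀ (by positivity) (by linarith) _)
      (by positivity) (by positivity)
  · refine (spl_deg _ (by positivity) hl).trans ?_
    rw [show (2 : ℝ) * (2 : ℕ) * 1 = (4 : ℕ) by norm_num, Real.rpow_natCast, ← pow_mul,
      ← mul_div_assoc, ← mul_div_assoc]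
    refine div_le_div_of_nonneg_right ?_ (by positivity)
    have a1 := pow_le_pow_left₀ (Nat.cast_nonneg _) ((Nat.cast_le.2 (card_image_le
      (s := T) (f := fun t => splF 1 (φ t)))).trans hT) 3
    calc _ ≤ 2 * ((K ^ 2 * N) ^ 3 * N) := by gcongr
      _ = 2 * (K ^ 6 * N) * N ^ 3 := by ring
      _ ≤ K ^ 20 * N * N ^ 3 := mul_le_mul_of_nonneg_right
          ((hq 6 7 rfl).trans (hpN (by norm_num))) (by positivity)
      _ = _ := by ring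
  · rw [card_image_of_injOn hinj]
    exact le_trans (by gcongr) hX1
  · intro z hz'
    obtain ⟨x, hx, rfl⟩ := mem_image.1 hz'
    exact hz x hx
  · intro r hr z0
    rw [P118.D.card_lift_SP]
    refine (Nat.cast_le.2 (spl_Z hN0 (le_trans (by simpa using hq 0 1 rfl)
      (hKN ▸ hpN (show 1 ≤ 3 by norm_num))) hr z0)).trans
      ((hX4 _ _ (by gcongr)).trans ?_)
    rw [show r / N = K ^ 5 * (r / (K ^ 5 * N)) by field_simp,
      Real.mul_rpow (by positivity) (by positivity)]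
    have a1 := spl_rp hK1 (Nat.le_ceil δ)
    calc _ ≤ K * Z0 * (K ^ (5 * ⌈δ⌉₊) * (r / (K ^ 5 * N)) ^ δ) := by gcongr
      _ = K ^ (5 * ⌈δ⌉₊ + 1) * Z0 * (r / (K ^ 5 * N)) ^ δ := by ring
      _ ≤ _ := by
        have := hp (show 5 * ⌈δ⌉₊ + 1 ≤ c1 by omega)
        gcongr
  · intro z hz'
    obtain ⟨x, hx, rfl⟩ := mem_image.1 hz'
    simp only [hxz x hx]
    obtain ⟨b1, b2, b3, b4⟩ := hX5 x hx
    have e5 : K ^ 2 * (K ^ 3 * N) = K ^ 5 * N := by ring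
    refine ⟨?_, ?_, ?_, ?_⟩
    · refine (spl_S (G x) _ (Sx x) (ρ := K + 3) (by positivity) fun p hp' => ?_).trans ?_
      · obtain ⟨s, hs, a1⟩ := b4 p hp'
        refine ⟨s, hs, (norm_sub_le_norm_sub_add_norm_sub _ (φ p.1 + x • φ p.2) _).trans ?_⟩
        have a2 := spl_err (R := K ^ 2) (lam := K ^ 3 * N) (by positivity) (by positivity)
          (e5 ▸ hz x hx) (spl_fl _) (φ p.1) ((hB _ (mem_product.1 (b2 hp')).2).trans
            (hKN ▸ hpN (show 1 ≤ 3 by norm_num)))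
        linarith
      · rw [Real.rpow_one, mul_comm]
        refine mul_le_mul (le_trans ?_ (hp (show 4 * (n + 1) ≤ c1 by omega)))
          (b1.trans (hKN ▸ hpN (show 1 ≤ 5 by norm_num))) (Nat.cast_nonneg _) (by positivity)
        rw [pow_mul]
        exact pow_le_pow_left₀ (by positivity) (by linarith) _
    · intro y hy
      obtain ⟨p, hp', rfl⟩ := mem_image.1 hy
      obtain ⟨a1, a2⟩ := mem_product.1 (b2 hp')
      exact mem_product.2 ⟨mem_image_of_mem _ a1, mem_image_of_mem _ a2⟩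
    · have a1 := b3.trans (spl_G h1 hK0.le (one_le_pow₀ (n := 2) hK1) b2)
      rw [div_le_iff₀ hK0] at a1
      rw [Real.rpow_one, div_le_iff₀ (by positivity)]
      calc _ = K ^ 10 * N ^ 2 := by ring
        _ ≤ K ^ 10 * (_ * (K * K) * K) := mul_le_mul_of_nonneg_left a1 (by positivity)
        _ = _ * K ^ 13 := by ring
        _ ≤ _ := mul_le_mul_of_nonneg_left (hp (by omega)) (Nat.cast_nonneg _)
    · intro y hy
      obtain ⟨p, hp', rfl⟩ := mem_image.1 hy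
      refine ⟨_, mem_image_of_mem _ hp', fun j => ?_⟩
      simp only [cell, div_one, e5]
      rw [abs_sub_comm]
      exact (spl_fl _).trans one_le_two

theorem spl (n : ℕ) {δ : ℝ} (hδ : 0 < δ) : ∃ κ > (0 : ℝ), κ ≤ 1 ∧ ∃ c : ℕ,
    ∀ (N K : ℝ) (τ : Type) (T : Finset τ) (φ : τ → Fin (n + 1) → ℝ), 2 ≤ K → K ^ c ≤ N →
    (∀ a r : ℝ, 1 ≤ r → ((T.filter fun t => |φ t 0 - a| ≤ r).card : ℝ) ≤ K * r) →
    (∀ t ∈ T, ∀ t' ∈ T, ‖φ t - φ t'‖ ≤ K * (|φ t 0 - φ t' 0| + 1)) →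
    (∀ t ∈ T, ‖φ t‖ ≤ K * N) → SumD δ N K T φ →
    ∃ T' ⊆ T, N / K ^ c ≤ T'.card ∧ ∃ κv : Fin (n + 1) → ℝ, ‖κv‖ ≤ K ^ c ∧
      ∀ t ∈ T', ∀ t' ∈ T', ‖φ t - φ t' - (φ t 0 - φ t' 0) • κv‖ ≤ K ^ c * N ^ (1 - κ) := by
  obtain ⟨κ, hκ, hκ1, c, H⟩ := spl_core n hδ
  refine ⟨κ, hκ, hκ1, c + 12, fun N K τ T φ hK hN h1 hL hB hS => ?_⟩
  have hK0 : 0 < K := by linarith
  have hK1 : 1 ≤ K := by linarith
  have hN1 : 1 ≤ N := (one_le_pow₀ hK1).trans hN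
  have hp : ∀ {a b : ℕ}, a ≤ b → K ^ a ≤ K ^ b := fun h => pow_le_pow_right₀ hK1 h
  have h2 := H N K τ T φ hK ((hp (by omega)).trans hN) (fun a r hr F hF hf => le_trans
    (Nat.cast_le.2 (card_le_card fun t ht => mem_filter.2 ⟨hF ht, hf t ht⟩)) (h1 a r hr)) hL hB hS
  obtain ⟨q, v, h3⟩ : ∃ q v : Fin (n + 1) → ℝ, N / K ^ c <
      (((T.image fun t => splF 1 (φ t)).filter fun a => ∃ l : ℝ, ∀ j,
        |(a j : ℝ) - q j - l * v j| ≤ (K ^ 5 * N) ^ (1 - κ)).card : ℝ) := by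
    by_contra h
    push Not at h
    exact h2 h
  rw [filter_image] at h3
  have hρ : 1 ≤ (K ^ 5 * N) ^ (1 - κ) :=
    Real.one_le_rpow (one_le_mul_of_one_le_of_one_le (one_le_pow₀ hK1) hN1) (by linarith)
  have hρ1 : (K ^ 5 * N) ^ (1 - κ) ≤ K ^ 5 * N ^ (1 - κ) := by
    rw [Real.mul_rpow (by positivity) (by positivity)]
    exact mul_le_mul_of_nonneg_right (spl_rp (k := 1) hK1 (by norm_num; linarith)) (by positivity)
  generalize (K ^ 5 * N) ^ (1 - κ) = ρ at h3 hρ hρ1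
  obtain ⟨κv, h4, h5⟩ := spl_line (T.filter fun t => ∃ l : ℝ, ∀ j,
      |(splF 1 (φ t) j : ℝ) - q j - l * v j| ≤ ρ) φ hK1 (show 1 ≤ 2 * ρ by linarith)
    (fun t ht t' ht' => hL t (mem_filter.1 ht).1 t' (mem_filter.1 ht').1) q v fun t ht => by
      obtain ⟨l, hl⟩ := (mem_filter.1 ht).2
      refine ⟨l, (pi_norm_le_iff_of_nonneg (by linarith)).2 fun j => ?_⟩
      have a1 := abs_le.1 (hl j)
      have a2 := abs_le.1 (splF_one (φ t) j)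
      simp only [Pi.sub_apply, Pi.smul_apply, smul_eq_mul, Real.norm_eq_abs, abs_le]
      constructor <;> linarith
  refine ⟨_, filter_subset _ _, le_trans (div_le_div_of_nonneg_left (by linarith) (by positivity)
    (hp (by omega))) (h3.le.trans (Nat.cast_le.2 card_image_le)), κv,
    h4.trans (le_trans (by nlinarith) (hp (show 2 ≤ c + 12 by omega))),
    fun t ht t' ht' => (h5 t ht t' ht').trans ?_⟩
  have a1 : (2 : ℝ) ^ 6 ≤ K ^ 6 := pow_le_pow_left₀ (by norm_num) hK 6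
  calc 24 * K * (2 * ρ) ≤ 24 * K * (2 * (K ^ 5 * N ^ (1 - κ))) := by gcongr
    _ = 48 * (K ^ 6 * N ^ (1 - κ)) := by ring
    _ ≤ K ^ 6 * (K ^ 6 * N ^ (1 - κ)) := mul_le_mul_of_nonneg_right (by linarith) (by positivity)
    _ = K ^ 12 * N ^ (1 - κ) := by ring
    _ ≤ _ := mul_le_mul_of_nonneg_right (hp (by omega)) (by positivity)

end Vale.Agent.P127
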